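import Vale.Agent.P011.D4T.H691.Na

/-!
Block D4T: transport of the finite residual along an isomorphism of the groups of similitudes which
keeps the multipliers.
-/

namespace Vale.Agent.P011.D4T

open Vale.Agent.P011.MPQ Vale.Agent.P011.D4 Vale.Agent.P011.D4.Oct Vale.Agent.P011.E6

section tran

variable {k L E E1 : Type} [Field k] [Field L] [Field E] [Field E1] [Algebra k L] [Algebra k E]
  [Algebra k E1] [Algebra L E] [Algebra L E1] [IsScalarTower k L E] [IsScalarTower k L E1]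
  {ρ σ : E ≃ₐ[k] E} {ρ1 σ1 : E1 ≃ₐ[k] E1} {α : E} {α1 : E1} {a b c a1 b1 c1 : kˣ} {q q1 : Lˣ}

/-- The isomorphism of the groups `GT`. -/
noncomputable def tranG (φ : AT ρ σ α a b c q ≃* AT ρ1 σ1 α1 a1 b1 c1 q1)
    (hφ : ∀ z, kap (φ z) = kap z) : GT ρ σ α a b c q ≃* GT ρ1 σ1 α1 a1 b1 c1 q1 where
  toFun g := ⟨(φ ⟨g.1, GT_le_AT g.2⟩).1, mem_GT_of_kap_one (by rw [hφ, kap_of_GT g.2])⟩
  invFun g := ⟨(φ.symm ⟨g.1, GT_le_AT g.2⟩).1, mem_GT_of_kap_one (by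
    rw [← hφ, φ.apply_symm_apply, kap_of_GT g.2])⟩
  left_inv g := by
    apply Subtype.ext
    change (φ.symm (φ ⟨g.1, GT_le_AT g.2⟩)).1 = g.1
    rw [φ.symm_apply_apply]
  right_inv g := by
    apply Subtype.ext
    change (φ (φ.symm ⟨g.1, GT_le_AT g.2⟩)).1 = g.1
    rw [φ.apply_symm_apply]
  map_mul' g h := by
    apply Subtype.ext
    change (φ (⟨g.1, GT_le_AT g.2⟩ * ⟨h.1, GT_le_AT h.2⟩)).1 = _
    rw [map_mul]
    rfl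

/-- The finite residual is kept. -/
theorem tran_Rs (φ : AT ρ σ α a b c q ≃* AT ρ1 σ1 α1 a1 b1 c1 q1) (hφ : ∀ z, kap (φ z) = kap z)
    {z : AT ρ σ α a b c q} (h : (φ z).1 ∈ Rs ρ1 σ1 α1 a1 b1 c1 q1) :
    z.1 ∈ Rs ρ σ α a b c q := by
  obtain ⟨h1, h2⟩ := mem_Rs.1 h
  have h3 := fres_map (tranG φ hφ).symm h2
  have h4 : (((tranG φ hφ).symm ⟨(φ z).1, h1⟩ : GT ρ σ α a b c q) :
      OctL E a b c ≃ₗ[E] OctL E a b c) = z.1 := by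
    change (φ.symm ⟨(φ z).1, _⟩).1 = z.1
    have h5 : (⟨(φ z).1, GT_le_AT h1⟩ : AT ρ1 σ1 α1 a1 b1 c1 q1) = φ z := rfl
    rw [h5, φ.symm_apply_apply]
  refine mem_Rs.2 ⟨h4 ▸ ((tranG φ hφ).symm ⟨(φ z).1, h1⟩).2, ?_⟩
  have h5 : (⟨z.1, h4 ▸ ((tranG φ hφ).symm ⟨(φ z).1, h1⟩).2⟩ : GT ρ σ α a b c q) =
      (tranG φ hφ).symm ⟨(φ z).1, h1⟩ := Subtype.ext h4.symm
  rw [h5]
  exact h3

/-- The finite residual is kept. -/
theorem tran_Rs_iff (φ : AT ρ σ α a b c q ≃* AT ρ1 σ1 α1 a1 b1 c1 q1)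
    (hφ : ∀ z, kap (φ z) = kap z) {z : AT ρ σ α a b c q} :
    (φ z).1 ∈ Rs ρ1 σ1 α1 a1 b1 c1 q1 ↔ z.1 ∈ Rs ρ σ α a b c q := by
  refine ⟨tran_Rs φ hφ, fun h => ?_⟩
  refine tran_Rs φ.symm (fun z => ?_) (z := φ z) ?_
  · rw [← hφ, φ.apply_symm_apply]
  · rw [φ.symm_apply_apply]
    exact h

end tran

end Vale.Agent.P011.D4T
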